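import Vale.Agent.P223.H620.ImEnd

namespace Vale.Agent.Results.P223.ConformalImmersions

open Vale.Agent.P223.J
open MeasureTheory

/-- For every `n ≥ 3` there is a constant `A > 0` such that for all closed connected oriented
smooth manifolds `M` (`c` is an oriented smooth atlas) and all Riemannian metrics `g` on `M`:
(1) if `g` is locally conformally flat then `‖M‖ ≤ A ∫ (Scal⁻)^(n/2)`;
(2) if `g` is bilipschitz, with constant `K`, to a locally conformally flat metric `g₁`, then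
`‖M‖ ≤ A K^(n²/2) ∫ (Scal_g⁻ + Scal_g₁⁺)^(n/2)`;
(3) if some covering of `M` is spin: `‖M‖ = 0` if some covering carries a positive function `w`
with `-Δ w + (Scal / 4) w ≥ s w`, `s > 0`, `|dw| ≤ C w`; and for all continuous functions `b ≥ 0`,
`r > 0` on `M` and `0 < ε ≤ 1`: if every open ball with centre `x` and radius `r` of the universal
covering has a conformal immersion into some `ℝ^N`, with induced metric `exp(2f) g` and tracefree
second fundamental form `II₀`, such that `exp(2f) |II₀|² ≤ b` then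
`‖M‖ ≤ A ε^(-n/2) ∫ max(0, ε (b + 1 / r²) - Scal)^(n/2)`, and if the whole universal covering has
such an immersion then `‖M‖ ≤ A ε^(-n/2) ∫ max(0, ε b - Scal)^(n/2)` (and, see `Ineq`, if the bound is
`a ∫ max(0, h - Scal)^(n/2)` and `Scal ≤ -s < 0`, `h - Scal ≤ κ` then
`‖M‖ ≤ a (κ / s)^(n/2) ∫ (Scal⁻)^(n/2)` for all metrics `exp(2f) g`). -/
theorem result (n : ℕ) (hn : 3 ≤ n) : ∃ A : ℝ, 0 < A ∧
    ∀ (M : Type) [TopologicalSpace M] [CompactSpace M] [T2Space M] [ConnectedSpace M]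
      [MeasurableSpace M] [BorelSpace M] (c : M → Ch n M), Atl c →
      ∀ (g : M → Mtx n) (μ : Measure M), Met c g → Vol c g μ →
      (Lcf c g → sv c ≤ ENNReal.ofReal A * L n μ (sn c g)) ∧
      (∀ (g₁ : M → Mtx n) (K : ℝ), Met c g₁ → Lcf c g₁ → 1 ≤ K → Bil c g₁ g K →
        sv c ≤ ENNReal.ofReal (A * K ^ ((n : ℝ) ^ 2 / 2)) *
          L n μ (fun p => sn c g p + max 0 (scal (g₁ p) (c p p)))) ∧
      ((∃ g₀, Met c g₀ ∧ CovSpin c g₀) →
        (CovPos c g → sv c = 0) ∧
        ∀ (b : M → ℝ) (ε : ℝ), Continuous b → (∀ p, 0 ≤ b p) → 0 < ε → ε ≤ 1 →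
          (UCImm c g b → Ineq c g μ (A * ε ^ (-(n : ℝ) / 2)) fun p => ε * b p) ∧
          ∀ r : M → ℝ, Continuous r → (∀ p, 0 < r p) → UCImmAt c g b r →
            Ineq c g μ (A * ε ^ (-(n : ℝ) / 2)) fun p => ε * (b p + 1 / r p ^ 2)) :=
  Vale.Agent.P223.H620.Im.specFin n hn

end Vale.Agent.Results.P223.ConformalImmersions
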