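import Vale.Agent.P223.H391.FinH

namespace Vale.Agent.Results.P223.DensityOfStates

open Vale.Agent.P223.J
open MeasureTheory

/-- For every `n ≥ 3` there is a constant `A > 0` such that for all closed connected oriented
smooth manifolds `M` of dimension `n` (`c` is an oriented smooth atlas) with a spin covering, all
Riemannian metrics `g` on `M` with `Scal ≥ -κ`, `κ > 0`, and all continuous `ρ ≥ 0` with
`|v|² ≤ ρ ∫ |(-Δ + κ)^n v|²` for all functions `v` on `M`: `‖M‖ ≤ A κ^(2n) ∫ ρ`. -/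
theorem result (n : ℕ) (hn : 3 ≤ n) : ∃ A : ℝ, 0 < A ∧
    ∀ (M : Type) [TopologicalSpace M] [CompactSpace M] [T2Space M] [ConnectedSpace M]
      [MeasurableSpace M] [BorelSpace M] (c : M → Ch n M), Atl c →
      (∃ g₀, Met c g₀ ∧ CovSpin c g₀) →
      ∀ (g : M → Mtx n) (μ : Measure M) (κ : ℝ) (ρ : M → ℝ), Met c g → Vol c g μ →
      0 < κ → (∀ p, -κ ≤ scal (g p) (c p p)) → Continuous ρ → (∀ p, 0 ≤ ρ p) →
      DoS c g μ κ n ρ →
      sv c ≤ ENNReal.ofReal (A * (κ ^ (2 * n) * ∫ p, ρ p ∂μ)) :=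
  Vale.Agent.P223.H391.finalH n hn

end Vale.Agent.Results.P223.DensityOfStates
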