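import Vale.Agent.P223.H391.FinW

namespace Vale.Agent.Results.P223.LocalSobolev

open Vale.Agent.P223.J
open MeasureTheory

/-- For every `n ≥ 3` there is a constant `A > 0` such that for all closed connected oriented
smooth manifolds `M` of dimension `n` (`c` is an oriented smooth atlas) with universal covering `X`,
all Riemannian metrics `g₁`, `g` on `M` and all `K ≥ 1` with `g₁ ≤ K g` and `g ≤ K g₁` (for instance
`g₁ = g`, `K = 1`):
(1) if some covering of `M` is spin, `r > 0` and `β ≥ 0` are continuous functions on `M`, `T ≥ 1`,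
`0 < y ≤ 1`, and for all `x` in `X` the Sobolev inequality
`y (∫ |u|^(2n/(n-2)))^((n-2)/n) ≤ ∫ (|du|² + (T Scal_g⁺ + β) u²)` holds (for `g₁`) for all smooth
functions `u` with compact support in the open ball with centre `x` and radius `r` then
`‖M‖ ≤ A K^(n²/2) (T / (y ε))^(n/2) ∫ max(0, ε (β + 1 / r²) - Scal_g)^(n/2) dV_g` for all
`0 < ε ≤ 1`;
(2) if some covering of `M` is spin and `r > 0` is a smooth function on `M` with `|dr| ≤ 1` such
that the injectivity radius of `(X, g₁)` is at least `r` then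
`‖M‖ ≤ A K^(n²/2) ε^(-n/2) ∫ max(0, ε / r² - Scal_g)^(n/2) dV_g` for all `0 < ε ≤ 1`;
(3) if `g₁` has no conjugate points then `‖M‖ ≤ A K^(n²/2) ∫ max(0, -Scal_g)^(n/2) dV_g`.
The second part of `Ineq`: if the bound in (1), (2) or (3) is `a ∫ max(0, h - Scal_g)^(n/2) dV_g` and
`Scal_g ≤ -s < 0`, `h - Scal_g ≤ κ` then `‖M‖ ≤ a (κ / s)^(n/2) ∫ (Scal⁻)^(n/2) dV` for all metrics
`exp(2f) g`. -/
theorem result (n : ℕ) (hn : 3 ≤ n) : ∃ A : ℝ, 0 < A ∧
    ∀ (M : Type) [TopologicalSpace M] [CompactSpace M] [T2Space M] [ConnectedSpace M]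
      [MeasurableSpace M] [BorelSpace M] (c : M → Ch n M), Atl c →
      ∀ (g : M → Mtx n) (μ : Measure M), Met c g → Vol c g μ →
      ∀ (g₁ : M → Mtx n) (K : ℝ), Met c g₁ → 1 ≤ K → Bil c g₁ g K →
      ((∃ g₀, Met c g₀ ∧ CovSpin c g₀) → ∀ (r : M → ℝ) (ε : ℝ), (∀ p, 0 < r p) → 0 < ε → ε ≤ 1 →
        (∀ (β : M → ℝ) (T y : ℝ), Continuous r → Continuous β → (∀ p, 0 ≤ β p) → 1 ≤ T →
          0 < y → y ≤ 1 →
          UCSobAt c g₁ (fun p => T * max 0 (scal (g p) (c p p)) + β p) y r →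
          Ineq c g μ (A * K ^ ((n : ℝ) ^ 2 / 2) * (T / (y * ε)) ^ ((n : ℝ) / 2))
            fun p => ε * (β p + 1 / r p ^ 2)) ∧
        (Lip1 c g₁ r → InjGe c g₁ r →
          Ineq c g μ (A * K ^ ((n : ℝ) ^ 2 / 2) * ε ^ (-(n : ℝ) / 2))
            fun p => ε / r p ^ 2)) ∧
      (NoConj c g₁ → Ineq c g μ (A * K ^ ((n : ℝ) ^ 2 / 2)) fun _ => 0) :=
  Vale.Agent.P223.H391.finalW n hn

end Vale.Agent.Results.P223.LocalSobolev
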